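import Vale.Agent.P097Mo.Defs

/-!
# P097Mo row 2103: integration and normalisation of the model law
-/

set_option linter.all false

noncomputable section

namespace Vale.Agent.P097Mo

open Filter Topology Set Metric Complex

theorem fin_sin (x : ℂ) (hx : ‖x‖ ≤ 1) : ‖sin x - (x - x ^ 3 / 6)‖ ≤ ‖x‖ ^ 4 / 2 := by
  have h1 : ‖x * I‖ ≤ 1 := by simpa using hx
  have h2 : ‖-x * I‖ ≤ 1 := by simpa using hx
  have a := Complex.exp_bound h1 (n := 4) (by norm_num)
  have b := Complex.exp_bound h2 (n := 4) (by norm_num)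
  have n1 : ‖x * I‖ = ‖x‖ := by simp
  have n2 : ‖-x * I‖ = ‖x‖ := by simp
  rw [n1] at a
  rw [n2] at b
  have e : sin x - (x - x ^ 3 / 6) =
      ((cexp (-x * I) - ∑ m ∈ Finset.range 4, (-x * I) ^ m / m.factorial) -
        (cexp (x * I) - ∑ m ∈ Finset.range 4, (x * I) ^ m / m.factorial)) * I / 2 := by
    simp only [Complex.sin, Finset.sum_range_succ, Finset.range_zero, Finset.sum_empty,
      Nat.factorial]
    push_cast
    have hI : I ^ 2 = -1 := I_sq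
    have hI4 : I ^ 4 = 1 := I_pow_four
    linear_combination (-x) * hI - (x ^ 3 / 6) * hI4
  rw [e, norm_div, norm_mul, norm_I, mul_one]
  have := norm_sub_le (cexp (-x * I) - ∑ m ∈ Finset.range 4, (-x * I) ^ m / m.factorial)
    (cexp (x * I) - ∑ m ∈ Finset.range 4, (x * I) ^ m / m.factorial)
  have h4 : 0 ≤ ‖x‖ ^ 4 := by positivity
  have hn : ‖(2 : ℂ)‖ = 2 := by simp
  rw [hn]
  norm_num [Nat.factorial] at a b this ⊢
  linarith

theorem fin_cos (x : ℂ) (hx : ‖x‖ ≤ 1) : ‖cos x - (1 - x ^ 2 / 2)‖ ≤ ‖x‖ ^ 4 / 2 := by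
  have h1 : ‖x * I‖ ≤ 1 := by simpa using hx
  have h2 : ‖-x * I‖ ≤ 1 := by simpa using hx
  have a := Complex.exp_bound h1 (n := 4) (by norm_num)
  have b := Complex.exp_bound h2 (n := 4) (by norm_num)
  have n1 : ‖x * I‖ = ‖x‖ := by simp
  have n2 : ‖-x * I‖ = ‖x‖ := by simp
  rw [n1] at a
  rw [n2] at b
  have e : cos x - (1 - x ^ 2 / 2) =
      ((cexp (-x * I) - ∑ m ∈ Finset.range 4, (-x * I) ^ m / m.factorial) +
        (cexp (x * I) - ∑ m ∈ Finset.range 4, (x * I) ^ m / m.factorial)) / 2 := by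
    simp only [Complex.cos, Finset.sum_range_succ, Finset.range_zero, Finset.sum_empty,
      Nat.factorial]
    push_cast
    have hI : I ^ 2 = -1 := I_sq
    linear_combination (x ^ 2 / 2) * hI
  rw [e, norm_div]
  have := norm_add_le (cexp (-x * I) - ∑ m ∈ Finset.range 4, (-x * I) ^ m / m.factorial)
    (cexp (x * I) - ∑ m ∈ Finset.range 4, (x * I) ^ m / m.factorial)
  have h4 : 0 ≤ ‖x‖ ^ 4 := by positivity
  have hn : ‖(2 : ℂ)‖ = 2 := by simp
  rw [hn]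
  norm_num [Nat.factorial] at a b this ⊢
  linarith

theorem Sf_bound (x : ℂ) (hx : ‖x‖ ≤ 1) : ‖Sf x - x ^ 3 / 3‖ ≤ ‖x‖ ^ 4 := by
  have a := fin_sin x hx
  have b := fin_cos x hx
  have e : Sf x - x ^ 3 / 3 = (sin x - (x - x ^ 3 / 6)) - x * (cos x - (1 - x ^ 2 / 2)) := by
    unfold Sf; ring
  rw [e]
  have c := norm_sub_le (sin x - (x - x ^ 3 / 6)) (x * (cos x - (1 - x ^ 2 / 2)))
  rw [norm_mul] at c
  have d : ‖x‖ * ‖cos x - (1 - x ^ 2 / 2)‖ ≤ 1 * (‖x‖ ^ 4 / 2) :=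
    mul_le_mul hx b (norm_nonneg _) zero_le_one
  linarith

theorem fin_sin_ne (x : ℂ) (hx : ‖x‖ ≤ 1) (h0 : x ≠ 0) : sin x ≠ 0 := by
  intro h
  have a := fin_sin x hx
  rw [h, zero_sub, norm_neg] at a
  have b : ‖x‖ ≤ ‖x - x ^ 3 / 6‖ + ‖x ^ 3 / 6‖ := by
    have := norm_add_le (x - x ^ 3 / 6) (x ^ 3 / 6)
    simpa using this
  have c : ‖x ^ 3 / 6‖ = ‖x‖ ^ 3 / 6 := by simp
  have p : 0 < ‖x‖ := norm_pos_iff.2 h0
  have d3 : ‖x‖ ^ 3 ≤ ‖x‖ := by
    have := pow_le_pow_of_le_one p.le hx (show 1 ≤ 3 by norm_num)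
    simpa using this
  have d4 : ‖x‖ ^ 4 ≤ ‖x‖ := by
    have := pow_le_pow_of_le_one p.le hx (show 1 ≤ 4 by norm_num)
    simpa using this
  linarith

theorem hasDerivAt_Sf (x : ℂ) : HasDerivAt Sf (x * sin x) x := by
  have h := (hasDerivAt_sin x).sub ((hasDerivAt_id x).mul (hasDerivAt_cos x))
  have e : cos x - (1 * cos x + id x * -sin x) = x * sin x := by simp
  rw [e] at h
  exact h

theorem fin : S_FIN := by
  intro g Y W L P hL hP hc dg dY hm hW hO hN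
  have dG : DifferentiableOn ℂ (fun x => g (Y x)) P := dg.comp dY hm
  have dY' : DifferentiableOn ℂ (deriv Y) P := dY.deriv hP
  have dδ : DifferentiableOn ℂ (dl g Y W) P := by
    have : DifferentiableOn ℂ (fun x => W * g (Y x) * deriv Y x / 2) P :=
      ((dG.const_mul W).mul dY').div_const 2
    exact this
  have dS : Differentiable ℂ Sf := fun x => (hasDerivAt_Sf x).differentiableAt
  have dF : DifferentiableOn ℂ (fun x => Sf (dl g Y W x)) P := dS.comp_differentiableOn dδ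
  -- the deep sequence
  have hN' : ∀ k : ℕ, ∃ x ∈ P, ‖deriv Y x - 1‖ < 1 / ((k : ℝ) + 1) ∧ g (Y x) ≠ 0 ∧
      ‖g (Y x)‖ < 1 / ((k : ℝ) + 1) := fun k => hN _ Nat.one_div_pos_of_nat
  choose x hxP hx1 hx0 hx2 using hN'
  have t0 : Tendsto (fun k : ℕ => 1 / ((k : ℝ) + 1)) atTop (𝓝 0) :=
    tendsto_one_div_add_atTop_nhds_zero_nat
  have tu : Tendsto (fun k => deriv Y (x k)) atTop (𝓝 1) :=
    tendsto_iff_norm_sub_tendsto_zero.2
      (squeeze_zero (fun _ => norm_nonneg _) (fun k => (hx1 k).le) t0)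
  have tv : Tendsto (fun k => g (Y (x k))) atTop (𝓝 0) :=
    tendsto_zero_iff_norm_tendsto_zero.2
      (squeeze_zero (fun _ => norm_nonneg _) (fun k => (hx2 k).le) t0)
  have tδ : Tendsto (fun k => dl g Y W (x k)) atTop (𝓝 0) := by
    have := ((tv.const_mul W).mul tu).div_const 2
    simpa [dl] using this
  have ev1 : ∀ᶠ k in atTop, ‖dl g Y W (x k)‖ ≤ 1 := by
    have := tendsto_zero_iff_norm_tendsto_zero.1 tδ
    exact this.eventually (ge_mem_nhds one_pos)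
  have ev2 : ∀ᶠ k in atTop, deriv Y (x k) ≠ 0 := tu.eventually_ne one_ne_zero
  obtain ⟨k0, k1, k2⟩ := (ev1.and ev2).exists
  set x0 := x k0 with hx0d
  have hδ0 : dl g Y W x0 ≠ 0 := by
    unfold dl
    exact div_ne_zero (mul_ne_zero (mul_ne_zero hW (hx0 k0)) k2) two_ne_zero
  have hs0 : sin (dl g Y W x0) ≠ 0 := fin_sin_ne _ k1 hδ0
  have hPn : P ∈ 𝓝 x0 := hP.mem_nhds (hxP k0)
  have c1 : ContinuousAt (fun z => g (Y z)) x0 := (dG.differentiableAt hPn).continuousAt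
  have c2 : ContinuousAt (fun z => sin (dl g Y W z)) x0 :=
    continuous_sin.continuousAt.comp (dδ.differentiableAt hPn).continuousAt
  have nb : ∀ᶠ z in 𝓝 x0, z ∈ P ∧ g (Y z) ≠ 0 ∧ sin (dl g Y W z) ≠ 0 :=
    (show ∀ᶠ z in 𝓝 x0, z ∈ P from hPn).and
      ((c1.eventually_ne (hx0 k0)).and (c2.eventually_ne hs0))
  obtain ⟨ρ, hρ, hb⟩ := Metric.eventually_nhds_iff_ball.1 nb
  have hJ : ∀ z ∈ ball x0 ρ, HasDerivAt (fun z => Sf (dl g Y W z) / g (Y z) ^ 3) 0 z := by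
    intro z hz
    obtain ⟨zP, z0, zs⟩ := hb z hz
    have zn : P ∈ 𝓝 z := hP.mem_nhds zP
    have a1 : HasDerivAt (dl g Y W) (deriv (dl g Y W) z) z := (dδ.differentiableAt zn).hasDerivAt
    have a2 : HasDerivAt Y (deriv Y z) z := (dY.differentiableAt zn).hasDerivAt
    have a3 : HasDerivAt g (deriv g (Y z)) (Y z) :=
      (dg.differentiableAt (hL.mem_nhds (hm zP))).hasDerivAt
    have a4 : HasDerivAt (fun z => g (Y z)) (deriv g (Y z) * deriv Y z) z := a3.comp z a2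
    have a5 : HasDerivAt (fun z => Sf (dl g Y W z))
        (dl g Y W z * sin (dl g Y W z) * deriv (dl g Y W) z) z :=
      (hasDerivAt_Sf _).comp z a1
    have a6 := a5.div (a4.pow 3) (pow_ne_zero 3 z0)
    have o := (mul_eq_zero.1 (hO z zP z0)).resolve_left zs
    have e : (dl g Y W z * sin (dl g Y W z) * deriv (dl g Y W) z * ((fun z => g (Y z)) ^ 3) z -
        Sf (dl g Y W z) * (((3 : ℕ) : ℂ) * g (Y z) ^ (3 - 1) * (deriv g (Y z) * deriv Y z))) /
        ((fun z => g (Y z)) ^ 3) z ^ 2 = 0 := by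
      apply div_eq_zero_iff.2
      left
      have hd : dl g Y W z = W * g (Y z) * deriv Y z / 2 := rfl
      simp only [Pi.pow_apply]
      push_cast
      linear_combination (g (Y z) ^ 2 * deriv Y z / 2) * o +
        (sin (dl g Y W z) * deriv (dl g Y W) z * g (Y z) ^ 3) * hd
    rw [e] at a6
    exact a6
  obtain ⟨J, hJc⟩ := isOpen_ball.exists_is_const_of_deriv_eq_zero
    (convex_ball x0 ρ).isPreconnected
    (fun z hz => (hJ z hz).differentiableAt.differentiableWithinAt)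
    (fun z hz => (hJ z hz).deriv)
  have hE : EqOn (fun z => Sf (dl g Y W z)) (fun z => J * g (Y z) ^ 3) P := by
    have an1 : AnalyticOnNhd ℂ (fun z => Sf (dl g Y W z)) P := dF.analyticOnNhd hP
    have an2 : AnalyticOnNhd ℂ (fun z => J * g (Y z) ^ 3) P :=
      ((dG.pow 3).const_mul J).analyticOnNhd hP
    refine an1.eqOn_of_preconnected_of_eventuallyEq an2 hc (hxP k0) ?_
    filter_upwards [ball_mem_nhds x0 hρ] with z hz
    have := hJc z hz
    have z0 := (hb z hz).2.1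
    rw [← this]
    field_simp
  have hle : ∀ᶠ k in atTop, ‖J - (W * deriv Y (x k) / 2) ^ 3 / 3‖ ≤
      ‖W * deriv Y (x k) / 2‖ ^ 4 * ‖g (Y (x k))‖ := by
    filter_upwards [ev1] with k hk
    have b := Sf_bound _ hk
    have e1 : Sf (dl g Y W (x k)) = J * g (Y (x k)) ^ 3 := hE (hxP k)
    have hd : dl g Y W (x k) = (W * deriv Y (x k) / 2) * g (Y (x k)) := by unfold dl; ring
    rw [e1, hd] at b
    have e2 : J * g (Y (x k)) ^ 3 - (W * deriv Y (x k) / 2 * g (Y (x k))) ^ 3 / 3 =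
        (J - (W * deriv Y (x k) / 2) ^ 3 / 3) * g (Y (x k)) ^ 3 := by ring
    rw [e2, norm_mul, norm_mul, norm_pow] at b
    have p : 0 < ‖g (Y (x k))‖ ^ 3 := pow_pos (norm_pos_iff.2 (hx0 k)) 3
    apply le_of_mul_le_mul_right _ p
    calc _ ≤ _ := b
      _ = _ := by ring
  have tl : Tendsto (fun k => ‖J - (W * deriv Y (x k) / 2) ^ 3 / 3‖) atTop
      (𝓝 ‖J - (W * 1 / 2) ^ 3 / 3‖) :=
    ((((((tu.const_mul W).div_const 2).pow 3).div_const 3).const_sub J)).norm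
  have tr : Tendsto (fun k => ‖W * deriv Y (x k) / 2‖ ^ 4 * ‖g (Y (x k))‖) atTop
      (𝓝 (‖W * 1 / 2‖ ^ 4 * ‖(0 : ℂ)‖)) :=
    ((((tu.const_mul W).div_const 2).norm).pow 4).mul tv.norm
  have hz := le_of_tendsto_of_tendsto tl tr hle
  rw [norm_zero, mul_zero] at hz
  have hJ0 : J = (W * 1 / 2) ^ 3 / 3 := sub_eq_zero.1 (norm_le_zero_iff.1 hz)
  intro z hz
  have e1 : Sf (dl g Y W z) = J * g (Y z) ^ 3 := hE hz
  rw [e1, hJ0]
  ring

end Vale.Agent.P097Mo
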