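import Vale.Agent.P097Mo.Defs

/-!
# P097Mo: calculus of continuous convergence along an ultrafilter
-/

set_option linter.all false

noncomputable section

namespace Vale.Agent.P097Mo

open Filter Topology Set Metric Complex

variable {F : ℕ → ℂ → ℂ} {f : ℂ → ℂ} {U : Set ℂ}

theorem cc_unif (𝒰 : Ultrafilter ℕ) {K : Set ℂ} (h : CC 𝒰 F f U) (hK : IsCompact K)
    (hKU : K ⊆ U) (hf : ContinuousOn f K) {η : ℝ} (hη : 0 < η) :
    ∀ᶠ j in (𝒰 : Filter ℕ), ∀ z ∈ K, ‖F j z - f z‖ ≤ η := by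
  by_contra hn
  have h1 : ∀ᶠ j in (𝒰 : Filter ℕ), ∃ z ∈ K, η < ‖F j z - f z‖ := by
    filter_upwards [Ultrafilter.eventually_not.2 hn] with j hj
    push Not at hj
    exact hj
  obtain ⟨j0, z0, hz0, -⟩ := h1.exists
  have h2 : ∀ j, ∃ z ∈ K, (∃ z ∈ K, η < ‖F j z - f z‖) → η < ‖F j z - f z‖ := by
    intro j
    by_cases hj : ∃ z ∈ K, η < ‖F j z - f z‖
    · obtain ⟨z, hz, h⟩ := hj
      exact ⟨z, hz, fun _ => h⟩
    · exact ⟨z0, hz0, fun h => absurd h hj⟩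
  choose u huK hu using h2
  obtain ⟨x, hx, hux⟩ := hK.ultrafilter_le_nhds (𝒰.map u) (by
    rw [le_principal_iff]
    exact mem_map.2 (Eventually.of_forall huK))
  have hux' : Tendsto u 𝒰 (𝓝 x) := hux
  have a1 := h x (hKU hx) u hux'
  have a2 : Tendsto (fun j => f (u j)) 𝒰 (𝓝 (f x)) :=
    (hf x hx).tendsto.comp (tendsto_nhdsWithin_iff.2 ⟨hux', Eventually.of_forall huK⟩)
  have a3 : Tendsto (fun j => ‖F j (u j) - f (u j)‖) 𝒰 (𝓝 0) := by
    simpa using (a1.sub a2).norm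
  obtain ⟨j, b1, b2⟩ := (h1.and (a3.eventually (gt_mem_nhds hη))).exists
  exact absurd (hu j b1) (not_lt.2 b2.le)

theorem cc_deriv (𝒰 : Ultrafilter ℕ) (hU : IsOpen U) (hE : EH 𝒰 F U)
    (hf : DifferentiableOn ℂ f U) (h : CC 𝒰 F f U) :
    CC 𝒰 (fun j => deriv (F j)) (deriv f) U := by
  intro x hx u hu
  obtain ⟨ρ, hρ, hd⟩ := hE x hx
  obtain ⟨ρ', hρ', hb⟩ := Metric.isOpen_iff.1 hU x hx
  obtain ⟨s, hs, s1, s2⟩ : ∃ s : ℝ, 0 < s ∧ 4 * s ≤ ρ ∧ 4 * s ≤ ρ' :=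
    ⟨min ρ ρ' / 4, by positivity, by linarith [min_le_left ρ ρ'], by linarith [min_le_right ρ ρ']⟩
  have k1 : closedBall x (2 * s) ⊆ ball x ρ := closedBall_subset_ball (by linarith)
  have k2 : closedBall x (2 * s) ⊆ U := (closedBall_subset_ball (by linarith)).trans hb
  have c1 : Tendsto (fun j => deriv f (u j)) 𝒰 (𝓝 (deriv f x)) :=
    ((hf.analyticOnNhd hU).deriv x hx).continuousAt.tendsto.comp hu
  have c2 : Tendsto (fun j => deriv (F j) (u j) - deriv f (u j)) 𝒰 (𝓝 0) := by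
    rw [Metric.tendsto_nhds]
    intro e he
    filter_upwards [hd, cc_unif 𝒰 h (isCompact_closedBall x (2 * s)) k2
      (hf.continuousOn.mono k2) (show 0 < e * s / 2 by positivity), hu (ball_mem_nhds x hs)]
      with j d1 d2 d3
    have m : closedBall (u j) s ⊆ closedBall x (2 * s) :=
      closedBall_subset_closedBall' (by
        have : dist (u j) x < s := d3
        linarith)
    have e1 : DifferentiableOn ℂ (fun z => F j z - f z) (closedBall x (2 * s)) :=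
      (d1.mono k1).sub (hf.mono k2)
    have e2 := Complex.norm_deriv_le_of_forall_mem_sphere_norm_le (f := fun z => F j z - f z) hs
      ((e1.mono m).diffContOnCl_ball subset_rfl)
      (fun z hz => d2 z (m (sphere_subset_closedBall hz)))
    have n1 : closedBall x (2 * s) ∈ 𝓝 (u j) :=
      mem_of_superset (closedBall_mem_nhds _ hs) m
    rw [deriv_fun_sub ((d1.mono k1).differentiableAt n1) ((hf.mono k2).differentiableAt n1)] at e2
    rw [dist_zero_right]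
    refine e2.trans_lt ?_
    rw [div_lt_iff₀ hs]
    nlinarith [mul_pos he hs]
  simpa using c2.add c1

theorem cc_int (𝒰 : Ultrafilter ℕ) {G G' : ℕ → ℂ → ℂ} {k k' : ℂ → ℂ}
    (hG : ∀ R : ℝ, ∀ᶠ j in (𝒰 : Filter ℕ), G j 0 = 0 ∧
      ∀ z ∈ ball (0 : ℂ) R, HasDerivAt (G j) (G' j z) z)
    (hk : ∀ z, HasDerivAt k (k' z) z) (hk0 : k 0 = 0) (hc : Continuous k')
    (h : CC 𝒰 G' k' univ) : CC 𝒰 G k univ := by
  intro x _ u hu
  have hR : 0 < ‖x‖ + 1 := by positivity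
  have c1 : Tendsto (fun j => k (u j)) 𝒰 (𝓝 (k x)) := (hk x).continuousAt.tendsto.comp hu
  have c2 : Tendsto (fun j => G j (u j) - k (u j)) 𝒰 (𝓝 0) := by
    rw [Metric.tendsto_nhds]
    intro e he
    filter_upwards [hG (‖x‖ + 2), cc_unif 𝒰 h (isCompact_closedBall 0 (‖x‖ + 1)) (subset_univ _)
      hc.continuousOn (show 0 < e / 2 / (‖x‖ + 1) by positivity),
      hu (ball_mem_nhds x one_pos)] with j d1 d2 d3
    have m : u j ∈ closedBall (0 : ℂ) (‖x‖ + 1) := by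
      have a : dist (u j) x < 1 := d3
      rw [dist_eq_norm] at a
      rw [mem_closedBall_zero_iff]
      have := norm_sub_norm_le (u j) x
      linarith
    have e1 := (convex_closedBall (0 : ℂ) (‖x‖ + 1)).norm_image_sub_le_of_norm_hasDerivWithin_le
      (f := fun z => G j z - k z) (f' := fun z => G' j z - k' z)
      (fun z hz => ((d1.2 z (closedBall_subset_ball (by linarith) hz)).sub (hk z)).hasDerivWithinAt)
      d2 (mem_closedBall_self hR.le) m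
    simp only [d1.1, hk0, sub_zero] at e1
    rw [dist_zero_right]
    refine e1.trans_lt ?_
    have := mem_closedBall_zero_iff.1 m
    calc e / 2 / (‖x‖ + 1) * ‖u j‖ ≤ e / 2 / (‖x‖ + 1) * (‖x‖ + 1) := by gcongr
      _ = e / 2 := by field_simp
      _ < e := by linarith
  simpa using c2.add c1

theorem ev_ball {l : Filter ℕ} {y ε : ℕ → ℂ} {y₀ : ℂ} (hy : Tendsto y l (𝓝 y₀))
    (el : Tendsto ε l (𝓝 0)) {ρ : ℝ} (hρ : 0 < ρ) (R : ℝ) :
    ∀ᶠ j in l, ∀ z ∈ ball (0 : ℂ) R, y j + ε j * z ∈ ball y₀ ρ := by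
  have a : Tendsto (fun j => ‖y j - y₀‖ + ‖ε j‖ * R) l (𝓝 0) := by
    simpa using ((hy.sub_const y₀).norm).add (el.norm.mul_const R)
  filter_upwards [a.eventually (gt_mem_nhds hρ)] with j hj z hz
  rw [mem_ball_zero_iff] at hz
  rw [mem_ball, dist_eq_norm]
  calc ‖y j + ε j * z - y₀‖ = ‖(y j - y₀) + ε j * z‖ := by congr 1; ring
    _ ≤ ‖y j - y₀‖ + ‖ε j‖ * ‖z‖ := by rw [← norm_mul]; exact norm_add_le _ _
    _ ≤ ‖y j - y₀‖ + ‖ε j‖ * R := by gcongr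
    _ < ρ := hj

theorem tend_pt {l : Filter ℕ} {y ε u : ℕ → ℂ} {y₀ z : ℂ} (hy : Tendsto y l (𝓝 y₀))
    (el : Tendsto ε l (𝓝 0)) (hu : Tendsto u l (𝓝 z)) :
    Tendsto (fun j => y j + ε j * u j) l (𝓝 y₀) := by
  simpa using hy.add (el.mul hu)

theorem hd_aff {Φ : ℂ → ℂ} {y e z y₀ : ℂ} {ρ : ℝ} (hd : DifferentiableOn ℂ Φ (ball y₀ ρ))
    (hz : y + e * z ∈ ball y₀ ρ) :
    HasDerivAt (fun z => Φ (y + e * z)) (deriv Φ (y + e * z) * e) z := by
  have a : HasDerivAt (fun z : ℂ => y + e * z) e z := by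
    simpa using ((hasDerivAt_id z).const_mul e).const_add y
  exact (hd.differentiableAt (isOpen_ball.mem_nhds hz)).hasDerivAt.comp z a

/-- first difference quotient, from the convergence of the derivatives -/
theorem dq' (𝒰 : Ultrafilter ℕ) (hE : EH 𝒰 F U) (h : CC 𝒰 (fun j => deriv (F j)) f U)
    {y ε : ℕ → ℂ} {y₀ : ℂ} (hy₀ : y₀ ∈ U) (hy : Tendsto y 𝒰 (𝓝 y₀)) (e0 : ∀ j, ε j ≠ 0)
    (el : Tendsto ε 𝒰 (𝓝 0)) :
    CC 𝒰 (fun j z => (F j (y j + ε j * z) - F j (y j)) / ε j) (fun z => f y₀ * z) univ := by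
  obtain ⟨ρ, hρ, hd⟩ := hE y₀ hy₀
  refine cc_int 𝒰 (G' := fun j z => deriv (F j) (y j + ε j * z)) (k' := fun _ => f y₀)
    (fun R => ?_) (fun z => by simpa using (hasDerivAt_id z).const_mul (f y₀)) (by simp)
    continuous_const (fun z _ u hu => h y₀ hy₀ _ (tend_pt hy el hu))
  filter_upwards [hd, ev_ball hy el hρ R] with j d1 d2
  refine ⟨by simp, fun z hz => ?_⟩
  have a := ((hd_aff d1 (d2 z hz)).sub_const (F j (y j))).div_const (ε j)
  rwa [mul_div_cancel_right₀ _ (e0 j)] at a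

theorem dq (𝒰 : Ultrafilter ℕ) (hU : IsOpen U) (hE : EH 𝒰 F U) (hf : DifferentiableOn ℂ f U)
    (h : CC 𝒰 F f U) {y ε : ℕ → ℂ} {y₀ : ℂ} (hy₀ : y₀ ∈ U) (hy : Tendsto y 𝒰 (𝓝 y₀))
    (e0 : ∀ j, ε j ≠ 0) (el : Tendsto ε 𝒰 (𝓝 0)) :
    CC 𝒰 (fun j z => (F j (y j + ε j * z) - F j (y j)) / ε j) (fun z => deriv f y₀ * z) univ :=
  dq' 𝒰 hE (cc_deriv 𝒰 hU hE hf h) hy₀ hy e0 el

theorem EH.deriv {l : Filter ℕ} (hE : EH l F U) : EH l (fun j => deriv (F j)) U := by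
  intro x hx
  obtain ⟨ρ, hρ, hd⟩ := hE x hx
  exact ⟨ρ, hρ, hd.mono fun j d => d.deriv isOpen_ball⟩

/-- second order remainder -/
theorem dq2 (𝒰 : Ultrafilter ℕ) (hU : IsOpen U) (hE : EH 𝒰 F U) (hf : DifferentiableOn ℂ f U)
    (h : CC 𝒰 (fun j => deriv (F j)) f U) {y ε : ℕ → ℂ} {y₀ : ℂ} (hy₀ : y₀ ∈ U)
    (hy : Tendsto y 𝒰 (𝓝 y₀)) (e0 : ∀ j, ε j ≠ 0) (el : Tendsto ε 𝒰 (𝓝 0)) :
    CC 𝒰 (fun j z => (F j (y j + ε j * z) - F j (y j) - ε j * z * deriv (F j) (y j)) / ε j ^ 2)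
      (fun z => deriv f y₀ * z ^ 2 / 2) univ := by
  obtain ⟨ρ, hρ, hd⟩ := hE y₀ hy₀
  refine cc_int 𝒰 (k' := fun z => deriv f y₀ * z) (fun R => ?_) (fun z => ?_) (by simp)
    (by fun_prop) (dq 𝒰 hU hE.deriv hf h hy₀ hy e0 el)
  · filter_upwards [hd, ev_ball hy el hρ R] with j d1 d2
    refine ⟨by simp, fun z hz => ?_⟩
    have b : HasDerivAt (fun z : ℂ => ε j * z * deriv (F j) (y j)) (ε j * deriv (F j) (y j)) z := by
      simpa using ((hasDerivAt_id z).const_mul (ε j)).mul_const (deriv (F j) (y j))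
    have a := (((hd_aff d1 (d2 z hz)).sub_const (F j (y j))).fun_sub b).div_const (ε j ^ 2)
    refine a.congr_deriv ?_
    have := e0 j
    field_simp
  · have a := (((hasDerivAt_id' z).fun_pow 2).const_mul (deriv f y₀)).div_const 2
    refine a.congr_deriv ?_
    simp
    ring

/-- difference quotient of one entire function -/
theorem dq_ent (𝒰 : Ultrafilter ℕ) {φ : ℂ → ℂ} (hφ : Differentiable ℂ φ) {w ε q : ℕ → ℂ}
    {w₀ q₀ : ℂ} (hw : Tendsto w 𝒰 (𝓝 w₀)) (e0 : ∀ j, ε j ≠ 0) (el : Tendsto ε 𝒰 (𝓝 0))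
    (hq : Tendsto q 𝒰 (𝓝 q₀)) :
    Tendsto (fun j => (φ (w j + ε j * q j) - φ (w j)) / ε j) 𝒰 (𝓝 (deriv φ w₀ * q₀)) :=
  dq 𝒰 (F := fun _ => φ) isOpen_univ
    (fun _ _ => ⟨1, one_pos, Eventually.of_forall fun _ => hφ.differentiableOn⟩)
    hφ.differentiableOn (fun x _ u hu => (hφ x).continuousAt.tendsto.comp hu) (mem_univ w₀) hw
    e0 el q₀ (mem_univ _) q hq

end Vale.Agent.P097Mo
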