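import Vale.Agent.P097Mo.Var

/-!
# P097Mo: consequences of the convergence of a window
-/

set_option linter.all false

noncomputable section

namespace Vale.Agent.P097Mo

open Filter Topology Set Metric Complex Vale.Agent.P097N

/-- `g` does not vanish identically near any point of `L` -/
def NZ (g : ℂ → ℂ) (L : Set ℂ) : Prop := ∀ y ∈ L, ∀ᶠ z in 𝓝[≠] y, g z ≠ 0

theorem nz_of {g : ℂ → ℂ} {L : Set ℂ} (op : IsOpen L) (hL : IsPreconnected L)
    (dg : DifferentiableOn ℂ g L) {y₀ : ℂ} (m : y₀ ∈ L) (n : g y₀ ≠ 0) : NZ g L := by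
  intro y hy
  have a := dg.analyticOnNhd op
  rcases (a y hy).eventually_eq_zero_or_eventually_ne_zero with k | k
  · exact (n (a.eqOn_zero_of_preconnected_of_eventuallyEq_zero hL hy k m)).elim
  · exact k

variable {g Y : ℂ → ℂ} {W : ℂ} {L P : Set ℂ}

/-- the normalisation without the non vanishing -/
theorem nrm_of (oL : IsOpen L) (oP : IsOpen P) (dg : DifferentiableOn ℂ g L)
    (dY : DifferentiableOn ℂ Y P) (m : MapsTo Y P L) (z : NZ g L)
    (h : ∀ η : ℝ, 0 < η → ∃ x ∈ P, ‖deriv Y x - 1‖ < η ∧ ‖g (Y x)‖ < η) : Nrm g Y P := by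
  intro η η0
  obtain ⟨x, hx, h1, h2⟩ := h (min η 1) (lt_min η0 one_pos)
  have aY := dY.analyticOnNhd oP x hx
  have d0 : deriv Y x ≠ 0 := fun e => by
    rw [e] at h1
    simpa using h1.trans_le (min_le_right _ _)
  have t : Tendsto Y (𝓝[≠] x) (𝓝[≠] (Y x)) :=
    aY.differentiableAt.hasDerivAt.tendsto_nhdsNE d0
  have c1 : ContinuousAt (fun x => ‖deriv Y x - 1‖) x :=
    (aY.deriv.continuousAt.sub continuousAt_const).norm
  have c2 : ContinuousAt (fun x => ‖g (Y x)‖) x :=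
    (ContinuousAt.comp (dg.analyticOnNhd oL _ (m hx)).continuousAt aY.continuousAt).norm
  have e : ∀ᶠ x' in 𝓝 x, x' ∈ P ∧ ‖deriv Y x' - 1‖ < η ∧ ‖g (Y x')‖ < η :=
    (oP.eventually_mem hx).and ((c1.eventually (gt_mem_nhds (h1.trans_le (min_le_left _ _)))).and
      (c2.eventually (gt_mem_nhds (h2.trans_le (min_le_left _ _)))))
  obtain ⟨x', k1, k2⟩ := ((t.eventually (z _ (m hx))).and (nhdsWithin_le_nhds e)).exists
  exact ⟨x', k2.1, k2.2.1, k1, k2.2.2⟩

/-- a disc on which `Y` is near the identity -/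
theorem deriv_near {x : ℂ} {R B : ℝ} (R0 : 0 < R) (dY : DifferentiableOn ℂ Y (ball x (2 * R)))
    (h : ∀ z ∈ ball x (2 * R), ‖Y z - z‖ ≤ B) : ‖deriv Y x - 1‖ ≤ B / R := by
  have s : closedBall x R ⊆ ball x (2 * R) := closedBall_subset_ball (by linarith)
  have d : DifferentiableOn ℂ (fun z => Y z - z) (ball x (2 * R)) := dY.sub differentiableOn_id
  have := norm_deriv_le_of_forall_mem_sphere_norm_le R0
    (d.diffContOnCl_ball s) fun z hz => h z (s (sphere_subset_closedBall hz))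
  have e : HasDerivAt (fun z => Y z - z) (deriv Y x - 1) x :=
    (dY.differentiableAt (ball_mem_nhds x (by linarith))).hasDerivAt.sub (hasDerivAt_id x)
  rwa [e.deriv] at this

/-- the reduced form of the law -/
theorem red_of {σ : ℂ → ℂ} (cσ : Continuous σ) (hσ : ∀ z, z ^ 3 * σ z = 3 * Sf z)
    (oL : IsOpen L) (oP : IsOpen P) (hP : IsPreconnected P) (dg : DifferentiableOn ℂ g L)
    (dY : DifferentiableOn ℂ Y P) (m : MapsTo Y P L) {x₀ : ℂ} (m₀ : x₀ ∈ P) (n : g (Y x₀) ≠ 0)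
    (M : Mod g Y W P) :
    ∀ x ∈ P, (W * deriv Y x) ^ 3 * σ (W * deriv Y x * g (Y x) / 2) = W ^ 3 := by
  intro x hx
  have dc : DifferentiableOn ℂ (fun x => g (Y x)) P := dg.comp dY m
  have z := nz_of oP hP dc m₀ n x hx
  have aY := dY.analyticOnNhd oP x hx
  have ac := dc.analyticOnNhd oP x hx
  have c0 : ContinuousAt (fun x => W * deriv Y x) x := continuousAt_const.mul aY.deriv.continuousAt
  have c : ContinuousAt
      (fun x => (W * deriv Y x) ^ 3 * σ (W * deriv Y x * g (Y x) / 2)) x :=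
    (c0.pow 3).mul (cσ.continuousAt.comp ((c0.mul ac.continuousAt).div_const 2))
  refine tendsto_nhds_unique (l := 𝓝[≠] x) (c.tendsto.mono_left nhdsWithin_le_nhds)
    (tendsto_const_nhds.congr' ?_)
  filter_upwards [z, nhdsWithin_le_nhds (oP.eventually_mem hx)] with x' k1 k2
  have e1 := M x' k2
  have e2 := hσ (dl g Y W x')
  have e3 : W * deriv Y x' * g (Y x') / 2 = dl g Y W x' := by
    rw [dl]
    ring
  rw [e3]
  refine mul_left_cancel₀ (pow_ne_zero 3 k1) ?_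
  rw [dl] at e2 e1 ⊢
  linear_combination (-8) * e2 - e1

variable {𝒰 : Ultrafilter ℕ} {ε : ℕ → ℂ} {θ h Q : ℕ → ℂ → ℂ} {c : ℕ → ℂ} {U : ℕ → Set ℂ}

theorem Seq.eh {l : Filter ℕ} (s : Seq l ε θ h Q c U g L) :
    EH l (fun j y => ε j * deriv (θ j) y) L := by
  intro y hy
  obtain ⟨ρ, ρ0, e⟩ := s.ex y hy
  exact ⟨ρ, ρ0, e.mono fun j k =>
    ((((s.cv j).dθ.mono k).deriv isOpen_ball).const_mul _)⟩

theorem Seq.cc1 (s : Seq 𝒰 ε θ h Q c U g L) :
    CC 𝒰 (fun j y => ε j * deriv (deriv (θ j)) y) (deriv g) L := by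
  have := cc_deriv 𝒰 s.op s.eh s.dg s.cc
  simpa only [deriv_const_mul_field'] using this

theorem Seq.cc2 (s : Seq 𝒰 ε θ h Q c U g L) :
    CC 𝒰 (fun j y => ε j * deriv (deriv (deriv (θ j))) y) (deriv (deriv g)) L := by
  have := cc_deriv 𝒰 s.op s.eh.deriv (s.dg.deriv s.op) (cc_deriv 𝒰 s.op s.eh s.dg s.cc)
  simpa only [deriv_const_mul_field'] using this

/-- the coefficient `Q` is locally bounded -/
theorem Seq.qb (s : Seq 𝒰 ε θ h Q c U g L) (z : NZ g L) : ∀ y ∈ L, ∃ ρ > 0, ∃ B : ℝ,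
    ball y ρ ⊆ L ∧ ∀ᶠ j in (𝒰 : Filter ℕ), ball y ρ ⊆ U j ∧ ∀ x ∈ ball y ρ, ‖Q j x‖ ≤ B := by
  intro y hy
  obtain ⟨ρ, ρ0, e⟩ := s.ex y hy
  obtain ⟨ρ', ρ1, k⟩ := Metric.eventually_nhds_iff_ball.1
    ((eventually_nhdsWithin_iff.1 (z y hy)).and (s.op.eventually_mem hy))
  obtain ⟨t, t0, t1, t2⟩ : ∃ t : ℝ, 0 < t ∧ t < ρ ∧ t < ρ' :=
    ⟨min ρ ρ' / 2, by positivity, by linarith [min_le_left ρ ρ', lt_min ρ0 ρ1],
      by linarith [min_le_right ρ ρ', lt_min ρ0 ρ1]⟩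
  have s1 : sphere y t ⊆ ball y ρ' := sphere_subset_ball t2
  have s2 : sphere y t ⊆ L := fun x hx => (k x (s1 hx)).2
  have cg : ContinuousOn g (sphere y t) := s.dg.continuousOn.mono s2
  have cg2 : ContinuousOn (deriv (deriv g)) (sphere y t) :=
    ((s.dg.deriv s.op).deriv s.op).continuousOn.mono s2
  obtain ⟨x₀, m₀, lo⟩ := (isCompact_sphere y t).exists_isMinOn
    (NormedSpace.sphere_nonempty.2 t0.le) cg.norm
  have μ0 : 0 < ‖g x₀‖ := norm_pos_iff.2 ((k x₀ (s1 m₀)).1 (ne_of_mem_sphere m₀ t0.ne'))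
  obtain ⟨B, hB⟩ := (isCompact_sphere y t).exists_bound_of_continuousOn cg2
  refine ⟨t, t0, (B + 1) / (‖g x₀‖ / 2), fun x hx => (k x (ball_subset_ball t2.le hx)).2, ?_⟩
  filter_upwards [e, cc_unif 𝒰 s.cc (isCompact_sphere y t) s2 cg (half_pos μ0),
    cc_unif 𝒰 s.cc2 (isCompact_sphere y t) s2 cg2 one_pos] with j a1 a2 a3
  refine ⟨(ball_subset_ball t1.le).trans a1, fun x hx => ?_⟩
  refine norm_le_of_forall_mem_frontier_norm_le isBounded_ball
    (((s.cv j).dQ.mono a1).diffContOnCl_ball (closedBall_subset_ball t1)) (fun w hw => ?_)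
    (subset_closure hx)
  rw [frontier_ball y t0.ne'] at hw
  have b1 : ‖g x₀‖ / 2 ≤ ‖ε j * deriv (θ j) w‖ := by
    have := norm_sub_norm_le (g w) (ε j * deriv (θ j) w)
    have l : ‖g x₀‖ ≤ ‖g w‖ := lo hw
    rw [norm_sub_rev] at this
    linarith [a2 w hw]
  have b2 : ‖ε j * deriv (deriv (deriv (θ j))) w‖ ≤ B + 1 := by
    have := norm_sub_norm_le (ε j * deriv (deriv (deriv (θ j))) w) (deriv (deriv g) w)
    linarith [a3 w hw, hB w hw]
  rw [(s.cv j).hq w (a1 (sphere_subset_ball t1 hw)), mul_left_comm, norm_mul] at b2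
  rw [le_div_iff₀ (half_pos μ0)]
  exact (mul_le_mul_of_nonneg_left b1 (norm_nonneg _)).trans b2

/-- the zeros of the limit curve are simple -/
theorem Seq.sz (s : Seq 𝒰 ε θ h Q c U g L) (z : NZ g L) :
    ∀ y ∈ L, g y = 0 → deriv g y ≠ 0 := by
  intro y hy g0 g1
  obtain ⟨ρ, ρ0, B, sub, e⟩ := s.qb z y hy
  have b : ∀ x ∈ ball y ρ, ‖deriv (deriv g) x‖ ≤ B * ‖g x‖ := fun x hx => by
    refine le_of_tendsto_of_tendsto (s.cc2 x (sub hx) _ tendsto_const_nhds).norm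
      ((s.cc x (sub hx) _ tendsto_const_nhds).norm.const_mul B) (e.mono fun j k => ?_)
    show ‖ε j * deriv (deriv (deriv (θ j))) x‖ ≤ B * ‖ε j * deriv (θ j) x‖
    rw [(s.cv j).hq x (k.1 hx), mul_left_comm, norm_mul]
    exact mul_le_mul_of_nonneg_right (k.2 x hx) (norm_nonneg _)
  have a := s.dg.analyticOnNhd s.op y hy
  have o1 := a.analyticOrderAt_deriv_add_one
  have o2 := a.deriv.analyticOrderAt_deriv_add_one
  simp only [g0, g1, sub_zero] at o1 o2
  have f : analyticOrderAt g y ≠ ⊤ := fun k => by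
    obtain ⟨x, k1, k2⟩ :=
      ((z y hy).and (nhdsWithin_le_nhds (analyticOrderAt_eq_top.1 k))).exists
    exact k1 k2
  have f2 : analyticOrderAt (deriv (deriv g)) y ≠ ⊤ := fun k => f (by
    have o1' : analyticOrderAt (deriv g) y + 1 = analyticOrderAt g y := o1
    have o2' : analyticOrderAt (deriv (deriv g)) y + 1 = analyticOrderAt (deriv g) y := o2
    rw [← o1', ← o2', k]
    simp)
  obtain ⟨n, hn⟩ := ENat.ne_top_iff_exists.1 f2
  have o3 : analyticOrderAt g y = (n + 2 : ℕ) := by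
    have o1' : analyticOrderAt (deriv g) y + 1 = analyticOrderAt g y := o1
    have o2' : analyticOrderAt (deriv (deriv g)) y + 1 = analyticOrderAt (deriv g) y := o2
    rw [← o1', ← o2', ← hn]
    push_cast
    ring
  obtain ⟨k, ak, -, ek⟩ := (a.analyticOrderAt_eq_natCast).1 o3
  obtain ⟨k2, ak2, n2, ek2⟩ := (a.deriv.deriv.analyticOrderAt_eq_natCast).1 hn.symm
  have t : Tendsto (fun x => B * ‖(x - y) ^ 2 * k x‖) (𝓝[≠] y) (𝓝 0) := by
    have : ContinuousAt (fun x => B * ‖(x - y) ^ 2 * k x‖) y :=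
      continuousAt_const.mul (((continuousAt_id.sub continuousAt_const).pow 2).mul
        ak.continuousAt).norm
    simpa using this.tendsto.mono_left nhdsWithin_le_nhds
  refine n2 (norm_le_zero_iff.1 (le_of_tendsto_of_tendsto
    (ak2.continuousAt.norm.tendsto.mono_left nhdsWithin_le_nhds) t ?_))
  filter_upwards [self_mem_nhdsWithin, nhdsWithin_le_nhds ek, nhdsWithin_le_nhds ek2,
    nhdsWithin_le_nhds (ball_mem_nhds y ρ0)] with x x0 x1 x2 x3
  have p0 : 0 < ‖(x - y) ^ n‖ := norm_pos_iff.2 (pow_ne_zero _ (sub_ne_zero.2 x0))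
  have := b x x3
  rw [x1, x2, smul_eq_mul, smul_eq_mul, pow_add, mul_assoc, norm_mul, norm_mul, mul_left_comm]
    at this
  exact le_of_mul_le_mul_left this p0

/-- the states of the true leaves converge to the state of the model leaf -/
theorem Lfv.state {w : ℕ → ℂ} {Z : ℕ → ℂ → ℂ} (e0 : ∀ j, ε j ≠ 0) (el : Tendsto ε 𝒰 (𝓝 0))
    (f : Lfv 𝒰 ε θ h w W Z Y L P) :
    CC 𝒰 (fun j x => (Z j x - Z j (x - ε j * w j)) / ε j) (fun x => W * deriv Y x) P := by
  intro x hx u hu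
  have := (dq 𝒰 f.op f.eh f.dY f.cc hx hu e0 el (-W) (mem_univ _) (fun j => -w j) f.wl.neg).neg
  convert this using 2
  · beta_reduce
    rw [mul_neg, ← sub_eq_add_neg]
    ring
  · ring

end Vale.Agent.P097Mo
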