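import Vale.Agent.P097Mo.Bridge

/-!
# P097Mo: window units and continuation of the model law
-/

set_option linter.all false

noncomputable section

namespace Vale.Agent.P097Mo

open Filter Topology Set Metric Complex Vale.Agent.P097N

theorem deriv_aff (f : ℂ → ℂ) (o d : ℂ) :
    deriv (fun X => f (o + d * X)) = fun X => d * deriv f (o + d * X) := by
  funext X
  rw [deriv_comp_mul_left (f := fun z => f (o + z)), deriv_comp_const_add, smul_eq_mul]

theorem deriv_aff2 (f : ℂ → ℂ) (o d : ℂ) :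
    deriv (deriv fun X => f (o + d * X)) = fun X => d ^ 2 * deriv (deriv f) (o + d * X) := by
  rw [deriv_aff, deriv_const_mul_field', deriv_aff]
  funext X
  ring

theorem deriv_aff3 (f : ℂ → ℂ) (o d : ℂ) : deriv (deriv (deriv fun X => f (o + d * X))) =
    fun X => d ^ 3 * deriv (deriv (deriv f)) (o + d * X) := by
  rw [deriv_aff2, deriv_const_mul_field', deriv_aff]
  funext X
  ring

/-- the curve in the units of a window -/
theorem cv_aff {θ h Q : ℂ → ℂ} {c : ℂ} {U : Set ℂ} (C : Cv θ h Q c U) (o : ℂ) {d : ℂ}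
    (d0 : d ≠ 0) : Cv (fun X => θ (o + d * X)) (fun X => h (o + d * X))
      (fun X => d ^ 2 * Q (o + d * X)) (d ^ 3 * c) ((fun X => o + d * X) ⁻¹' U) := by
  have a : DifferentiableOn ℂ (fun X : ℂ => o + d * X) ((fun X => o + d * X) ⁻¹' U) := by
    fun_prop
  refine ⟨C.op.preimage (by fun_prop), C.dθ.comp a fun _ k => k, C.dh.comp a fun _ k => k,
    (C.dQ.comp a fun _ k => k).const_mul _, mul_ne_zero (pow_ne_zero 3 d0) C.c0,
    fun y hy => ?_, fun y hy => ?_⟩
  · rw [deriv_aff2, deriv_aff2, deriv_aff, deriv_aff, ← C.ode _ hy]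
    ring
  · rw [deriv_aff3, deriv_aff]
    simp only [C.hq _ hy]
    ring

theorem kk_aff (θ h : ℂ → ℂ) (o d a b : ℂ) :
    kk (fun X => θ (o + d * X)) (fun X => h (o + d * X)) a b =
      d * kk θ h (o + d * a) (o + d * b) := by
  simp only [kk, deriv_aff]
  ring

theorem k1_aff (θ h : ℂ → ℂ) (o d a b : ℂ) :
    k1 (fun X => θ (o + d * X)) (fun X => h (o + d * X)) a b =
      d ^ 2 * k1 θ h (o + d * a) (o + d * b) := by
  simp only [k1, deriv_aff]
  ring

theorem ee_aff (θ h : ℂ → ℂ) (o d a b e : ℂ) :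
    EE (fun X => θ (o + d * X)) (fun X => h (o + d * X)) a b e =
      d ^ 3 * EE θ h (o + d * a) (o + d * b) (o + d * e) := by
  simp only [EE, kk_aff, k1_aff]
  ring

/-- the law in the units of a window -/
theorem ee_win {θ h : ℂ → ℂ} (o : ℂ) {d a b e : ℂ} (d0 : d ≠ 0) (k : EE θ h a b e = 0) :
    EE (fun X => θ (o + d * X)) (fun X => h (o + d * X)) ((a - o) / d) ((b - o) / d)
      ((e - o) / d) = 0 := by
  have q : ∀ z, o + d * ((z - o) / d) = z := fun z => by field_simp; ring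
  rw [ee_aff, q, q, q, k, mul_zero]

theorem cc_of {l : Filter ℕ} {F : ℕ → ℂ → ℂ} {f : ℂ → ℂ} {U : Set ℂ} (op : IsOpen U)
    (cf : ContinuousOn f U) (t : TendstoLocallyUniformlyOn F f l U) : CC l F f U :=
  fun x hx u hu => t.tendsto_comp (cf x hx) hx (by rwa [op.nhdsWithin_eq hx])

/-- the windows at the top line `im = R` see the whole lower half plane -/
theorem ex_win {l : Filter ℕ} {R : ℝ} (R0 : 0 < R) (s : ℕ → ℝ) {d : ℕ → ℝ} (d0 : ∀ n, 0 < d n)
    (dl : Tendsto d l (𝓝 0)) {y : ℂ} (hy : y.im < 0) :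
    ∀ᶠ n in l, ball y (-y.im) ⊆ (fun X => (s n + R * I : ℂ) + d n * X) ⁻¹' St R := by
  have t : Tendsto (fun n => d n * (-2 * y.im)) l (𝓝 0) := by simpa using dl.mul_const (-2 * y.im)
  filter_upwards [t.eventually (gt_mem_nhds R0)] with n k X hX
  rw [mem_ball, dist_eq_norm] at hX
  have := abs_lt.1 ((abs_im_le_norm _).trans_lt hX)
  rw [sub_im] at this
  show |((s n + R * I : ℂ) + d n * X).im| < R
  have e : ((s n + R * I : ℂ) + d n * X).im = R + d n * X.im := by simp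
  rw [e, abs_lt]
  constructor <;> nlinarith [d0 n, this.1, this.2]

/-- a converging sequence of windows -/
theorem seq_win {l : Filter ℕ} {θ h Q g : ℂ → ℂ} {c : ℂ} {R : ℝ} (C : Cv θ h Q c (St R))
    (R0 : 0 < R) (s : ℕ → ℝ) {d u : ℕ → ℝ} (d0 : ∀ n, 0 < d n) (u0 : ∀ n, 0 < u n)
    (dl : Tendsto d l (𝓝 0)) (ul : Tendsto (fun n => u n / d n) l (𝓝 0))
    (dg : DifferentiableOn ℂ g {X | X.im < 0})
    (cg : CC l (fun n X => u n * deriv θ (s n + R * I + d n * X)) g {X | X.im < 0}) :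
    Seq l (fun n => ((u n / d n : ℝ) : ℂ)) (fun n X => θ (s n + R * I + d n * X))
      (fun n X => h (s n + R * I + d n * X)) (fun n X => d n ^ 2 * Q (s n + R * I + d n * X))
      (fun n => d n ^ 3 * c) (fun n => (fun X => (s n + R * I : ℂ) + d n * X) ⁻¹' St R) g
      {X | X.im < 0} := by
  have dn : ∀ n, (d n : ℂ) ≠ 0 := fun n => ofReal_ne_zero.2 (d0 n).ne'
  refine ⟨fun n => ofReal_ne_zero.2 (div_pos (u0 n) (d0 n)).ne', ?_, fun n => cv_aff C _ (dn n),
    isOpen_lt continuous_im continuous_const,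
    fun y hy => ⟨-y.im, neg_pos.2 hy, ex_win R0 s d0 dl hy⟩, dg, fun y hy v hv => ?_⟩
  · exact ofReal_zero ▸ (continuous_ofReal.tendsto 0).comp ul
  · refine (cg y hy v hv).congr fun n => ?_
    have := dn n
    simp only [deriv_aff, ofReal_div]
    field_simp

variable {g Y : ℂ → ℂ} {W : ℂ} {L P : Set ℂ}

/-- the model law is preserved by analytic continuation -/
theorem mod_ext (oL : IsOpen L) (oP : IsOpen P) (hP : IsPreconnected P)
    (dg : DifferentiableOn ℂ g L) (dY : DifferentiableOn ℂ Y P) (m : MapsTo Y P L) {x₀ : ℂ}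
    (m₀ : x₀ ∈ P) (h : ∀ᶠ x in 𝓝 x₀, 24 * Sf (dl g Y W x) = (W * g (Y x)) ^ 3) : Mod g Y W P := by
  have dc : DifferentiableOn ℂ (fun x => g (Y x)) P := dg.comp dY m
  have dd : DifferentiableOn ℂ (dl g Y W) P :=
    ((dc.const_mul W).mul (dY.deriv oP)).div_const 2
  have d1 : DifferentiableOn ℂ (fun x => 24 * Sf (dl g Y W x)) P :=
    (dd.csin.sub (dd.mul dd.ccos)).const_mul 24
  exact (d1.analyticOnNhd oP).eqOn_of_preconnected_of_eventuallyEq
    (((dc.const_mul W).pow 3).analyticOnNhd oP) hP m₀ h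

/-- the law depends only on the germ -/
theorem mod_congr {Z : ℂ → ℂ} {P' : Set ℂ} (oP : IsOpen P') (M : Mod g Z W P') {x₀ : ℂ}
    (m₀ : x₀ ∈ P') (e : Y =ᶠ[𝓝 x₀] Z) :
    ∀ᶠ x in 𝓝 x₀, 24 * Sf (dl g Y W x) = (W * g (Y x)) ^ 3 := by
  filter_upwards [oP.mem_nhds m₀, e, e.deriv] with x k1 k2 k3
  have := M x k1
  rwa [dl, ← k2, ← k3] at this

/-- a limit of maps into the lower half plane which is not constant -/
theorem im_neg (oP : IsOpen P) (hP : IsPreconnected P) (dY : DifferentiableOn ℂ Y P)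
    (le : ∀ x ∈ P, (Y x).im ≤ 0) {x₀ : ℂ} (m₀ : x₀ ∈ P) (h : (Y x₀).im < 0) :
    ∀ x ∈ P, (Y x).im < 0 := by
  intro x hx
  refine (le x hx).lt_of_ne fun e => ?_
  have n : ∀ z, ‖exp (-I * Y z)‖ = Real.exp (Y z).im := fun z => by simp [norm_exp]
  have := norm_eqOn_of_isPreconnected_of_isMaxOn hP oP (dY.const_mul (-I)).cexp hx
    (fun z hz => by
      show ‖exp (-I * Y z)‖ ≤ ‖exp (-I * Y x)‖
      rw [n, n, e]
      exact Real.exp_le_exp.2 (le z hz)) m₀
  simp only [Function.comp, Function.const, n, e] at this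
  exact h.ne (Real.exp_injective this)

end Vale.Agent.P097Mo
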