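import Vale.Agent.P097N.Defs

/-!
# P097Mo: the model leaf of a circle window (definitions and statements)

`g` is the limit of `ε * θ'` in window units, `Y₀` the limit of the leaves of step `ε * W`.
-/

set_option linter.all false

noncomputable section

namespace Vale.Agent.P097Mo

open Filter Topology Set Metric Complex Vale.Agent.P097N

/-- the action of the circle -/
def Sf (δ : ℂ) : ℂ := sin δ - δ * cos δ

/-- the half angle along a model leaf -/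
def dl (g Y : ℂ → ℂ) (W x : ℂ) : ℂ := W * g (Y x) * deriv Y x / 2

/-- the model law on the set `P` -/
def Mod (g Y : ℂ → ℂ) (W : ℂ) (P : Set ℂ) : Prop :=
  ∀ x ∈ P, 24 * Sf (dl g Y W x) = (W * g (Y x)) ^ 3

/-- continuous convergence on `U` -/
def CC (l : Filter ℕ) (F : ℕ → ℂ → ℂ) (f : ℂ → ℂ) (U : Set ℂ) : Prop :=
  ∀ x ∈ U, ∀ u : ℕ → ℂ, Tendsto u l (𝓝 x) → Tendsto (fun j => F j (u j)) l (𝓝 (f x))

/-- eventually holomorphic near every point of `U` -/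
def EH (l : Filter ℕ) (F : ℕ → ℂ → ℂ) (U : Set ℂ) : Prop :=
  ∀ x ∈ U, ∃ ρ > 0, ∀ᶠ j in l, DifferentiableOn ℂ (F j) (ball x ρ)

/-- a sequence of curves in window units with the limit `g` of `ε * θ'` on `L` -/
structure Seq (l : Filter ℕ) (ε : ℕ → ℂ) (θ h Q : ℕ → ℂ → ℂ) (c : ℕ → ℂ) (U : ℕ → Set ℂ)
    (g : ℂ → ℂ) (L : Set ℂ) : Prop where
  e0 : ∀ j, ε j ≠ 0
  el : Tendsto ε l (𝓝 0)
  cv : ∀ j, Cv (θ j) (h j) (Q j) (c j) (U j)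
  op : IsOpen L
  ex : ∀ y ∈ L, ∃ ρ > 0, ∀ᶠ j in l, ball y ρ ⊆ U j
  dg : DifferentiableOn ℂ g L
  cc : CC l (fun j y => ε j * deriv (θ j) y) g L

/-- a sequence of leaves of step `ε * W` with the limit `Y₀` on `P` -/
structure Lf (l : Filter ℕ) (ε : ℕ → ℂ) (θ h : ℕ → ℂ → ℂ) (W : ℂ) (Y : ℕ → ℂ → ℂ) (Y₀ : ℂ → ℂ)
    (L P : Set ℂ) : Prop where
  op : IsOpen P
  eh : EH l Y P
  dY : DifferentiableOn ℂ Y₀ P
  cc : CC l Y Y₀ P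
  mem : MapsTo Y₀ P L
  law : ∀ x ∈ P, ∀ᶠ j in l,
    EE (θ j) (h j) (Y j (x - ε j * W)) (Y j x) (Y j (x + ε j * W)) = 0

/-- the differential form of the model law -/
def Ode (g Y : ℂ → ℂ) (W x : ℂ) : Prop :=
  sin (dl g Y W x) * (W * g (Y x) ^ 2 * sin (dl g Y W x) * deriv (dl g Y W) x -
    6 * deriv g (Y x) * Sf (dl g Y W x)) = 0

/-- the normalisation at infinite depth -/
def Nrm (g Y : ℂ → ℂ) (P : Set ℂ) : Prop :=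
  ∀ η : ℝ, 0 < η → ∃ x ∈ P, ‖deriv Y x - 1‖ < η ∧ g (Y x) ≠ 0 ∧ ‖g (Y x)‖ < η

/-- 2101: the two kernels as primitives -/
def S_KER : Prop := ∀ (θ h Q : ℂ → ℂ) (c : ℂ) (U : Set ℂ), Cv θ h Q c U → ∀ b ζ : ℂ, ζ ∈ U →
  deriv θ ζ ≠ 0 → deriv θ b ≠ 0 →
  HasDerivAt (fun z => kk θ h b z / deriv θ z) (c / deriv θ ζ ^ 2 * sin (θ ζ - θ b)) ζ ∧
  HasDerivAt (fun z => k1 θ h b z / (deriv θ z * deriv θ b))
    (-(c / deriv θ ζ ^ 2 * cos (θ ζ - θ b))) ζ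

/-- 2102: the limit of the law -/
def S_PT : Prop := ∀ (𝒰 : Ultrafilter ℕ) ε θ h Q c U g L W Y Y₀ P,
  Seq 𝒰 ε θ h Q c U g L → Lf 𝒰 ε θ h W Y Y₀ L P → ∀ x ∈ P, g (Y₀ x) ≠ 0 → Ode g Y₀ W x

/-- 2103: integration and normalisation -/
def S_FIN : Prop := ∀ (g Y : ℂ → ℂ) (W : ℂ) (L P : Set ℂ), IsOpen L → IsOpen P →
  IsPreconnected P → DifferentiableOn ℂ g L → DifferentiableOn ℂ Y P → MapsTo Y P L → W ≠ 0 →
  (∀ x ∈ P, g (Y x) ≠ 0 → Ode g Y W x) → Nrm g Y P → Mod g Y W P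

/-- **the model law** -/
def Spec_MODEL : Prop := ∀ (𝒰 : Ultrafilter ℕ) ε θ h Q c U g L W Y Y₀ P,
  Seq 𝒰 ε θ h Q c U g L → Lf 𝒰 ε θ h W Y Y₀ L P → IsPreconnected P → W ≠ 0 → Nrm g Y₀ P →
  Mod g Y₀ W P

theorem model_of (h2 : S_PT) (h3 : S_FIN) : Spec_MODEL :=
  fun 𝒰 ε θ h Q c U g L W Y Y₀ P s f hP hW hN =>
    h3 g Y₀ W L P s.op f.op hP s.dg f.dY f.mem hW (h2 𝒰 ε θ h Q c U g L W Y Y₀ P s f) hN

end Vale.Agent.P097Mo
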