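import Vale.Agent.P097Mo.Cc

/-!
# P097Mo: the limit of the reflection law in a circle window
-/

set_option linter.all false

noncomputable section

namespace Vale.Agent.P097Mo

open Filter Topology Set Metric Complex Vale.Agent.P097N

theorem lim_int (𝒰 : Ultrafilter ℕ) {φ : ℂ → ℂ} (hφ : Differentiable ℂ φ) {γ ε p q w : ℕ → ℂ}
    {γ₀ p₀ q₀ w₀ : ℂ} (h0 : γ₀ ≠ 0) (hγ : Tendsto γ 𝒰 (𝓝 γ₀)) (e0 : ∀ j, ε j ≠ 0)
    (el : Tendsto ε 𝒰 (𝓝 0)) (hp : Tendsto p 𝒰 (𝓝 p₀)) (hq : Tendsto q 𝒰 (𝓝 q₀))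
    (hw : Tendsto w 𝒰 (𝓝 w₀)) :
    Tendsto (fun j => ((γ j / (γ j + ε j * p j)) ^ 2 * φ (w j + ε j * q j) - φ (w j)) / ε j) 𝒰
      (𝓝 (-2 * p₀ / γ₀ * φ w₀ + deriv φ w₀ * q₀)) := by
  have a1 := tend_pt hγ el hp
  have a2 := (hφ w₀).continuousAt.tendsto.comp (tend_pt hw el hq)
  have a3 := dq_ent 𝒰 hφ hw e0 el hq
  have a4 := ((((hp.neg).mul (hγ.add a1)).div (a1.pow 2) (pow_ne_zero 2 h0)).mul a2).add a3
  have e : -p₀ * (γ₀ + γ₀) / γ₀ ^ 2 * φ w₀ + deriv φ w₀ * q₀ =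
      -2 * p₀ / γ₀ * φ w₀ + deriv φ w₀ * q₀ := by
    field_simp
    ring
  rw [e] at a4
  refine a4.congr' ?_
  filter_upwards [a1.eventually_ne h0] with j hj
  have key : ∀ g e p A B : ℂ, e ≠ 0 → g + e * p ≠ 0 →
      -p * (g + (g + e * p)) / (g + e * p) ^ 2 * A + (A - B) / e =
        ((g / (g + e * p)) ^ 2 * A - B) / e := by
    intro g e p A B he hD
    obtain ⟨D, rfl⟩ : ∃ D, g = D - e * p := ⟨g + e * p, by ring⟩
    simp only [sub_add_cancel] at hD ⊢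
    field_simp
    ring
  exact key _ _ _ _ _ (e0 j) hj

/-- first order terms of the two kernels -/
def n1 (γ lam z : ℂ) : ℂ := lam * z ^ 2 * sin (γ * z) / (2 * γ) - 3 * lam * Sf (γ * z) / γ ^ 3

def t1 (γ lam z : ℂ) : ℂ := lam * z ^ 2 * cos (γ * z) / (2 * γ) -
  3 * lam * (γ * z * sin (γ * z) + cos (γ * z) - 1) / γ ^ 3

theorem hd_lin (γ z : ℂ) : HasDerivAt (fun z : ℂ => γ * z) γ z := by
  simpa using (hasDerivAt_id' z).const_mul γ

theorem n1_der {γ : ℂ} (h : γ ≠ 0) (lam z : ℂ) : HasDerivAt (n1 γ lam)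
    (-2 * (lam * z) / γ * sin (γ * z) + deriv sin (γ * z) * (lam * z ^ 2 / 2)) z := by
  have s := (hd_lin γ z).csin
  have c := (hd_lin γ z).ccos
  have q := ((hasDerivAt_id' z).fun_pow 2).const_mul lam
  have a := ((q.fun_mul s).div_const (2 * γ)).fun_sub
    (((s.fun_sub ((hd_lin γ z).fun_mul c)).const_mul (3 * lam)).div_const (γ ^ 3))
  refine a.congr_deriv ?_
  simp only [Complex.deriv_sin]
  field_simp
  simp
  ring

theorem t1_der {γ : ℂ} (h : γ ≠ 0) (lam z : ℂ) : HasDerivAt (t1 γ lam)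
    (-2 * (lam * z) / γ * cos (γ * z) + deriv cos (γ * z) * (lam * z ^ 2 / 2)) z := by
  have s := (hd_lin γ z).csin
  have c := (hd_lin γ z).ccos
  have q := ((hasDerivAt_id' z).fun_pow 2).const_mul lam
  have a := ((q.fun_mul c).div_const (2 * γ)).fun_sub
    ((((((hd_lin γ z).fun_mul s).fun_add c).sub_const 1).const_mul (3 * lam)).div_const (γ ^ 3))
  refine a.congr_deriv ?_
  simp only [Complex.deriv_cos']
  field_simp
  simp
  ring

theorem alg_pt {γ lam α σ : ℂ} (h : γ ≠ 0)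
    (e : (cos (-(γ * α)) * (γ * σ) - cos 0 * (γ * σ)) / γ ^ 2 +
      (n1 γ lam α * (sin (γ * -α) / γ) + (1 - cos (γ * α)) / γ * t1 γ lam (-α) +
        (n1 γ lam (-α) * (sin (γ * α) / γ) + (1 - cos (γ * -α)) / γ * t1 γ lam α)) = 0) :
    sin (γ * α / 2) * (γ ^ 2 * sin (γ * α / 2) * ((lam * α ^ 2 + γ * σ) / 2) -
      6 * lam * Sf (γ * α / 2)) = 0 := by
  obtain ⟨δ, hδ⟩ : ∃ δ, γ * α = 2 * δ := ⟨γ * α / 2, by ring⟩
  have h2 : γ * α / 2 = δ := by rw [hδ]; ring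
  simp only [n1, t1, Sf, mul_neg, sin_neg, cos_neg, cos_zero, hδ, sin_two_mul, cos_two_mul,
    neg_sq] at e
  rw [h2, Sf]
  have c := sin_sq_add_cos_sq δ
  field_simp at e
  grind

theorem hd_aff' (y e z : ℂ) : HasDerivAt (fun z : ℂ => y + e * z) e z := by
  simpa using ((hasDerivAt_id' z).const_mul e).const_add y

/-- remainder of a kernel -/
theorem rem_cc (𝒰 : Ultrafilter ℕ) {φ : ℂ → ℂ} (hφ : Differentiable ℂ φ) {γ ε : ℕ → ℂ}
    {p q K A : ℕ → ℂ → ℂ} {k : ℂ → ℂ} {γ₀ lam : ℂ} (h0 : γ₀ ≠ 0) (hγ : Tendsto γ 𝒰 (𝓝 γ₀))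
    (e0 : ∀ j, ε j ≠ 0) (el : Tendsto ε 𝒰 (𝓝 0)) (hp : CC 𝒰 p (fun z => lam * z) univ)
    (hq : CC 𝒰 q (fun z => lam * z ^ 2 / 2) univ)
    (hK : ∀ R : ℝ, ∀ᶠ j in (𝒰 : Filter ℕ), K j 0 = 0 ∧ ∀ z ∈ ball (0 : ℂ) R,
      HasDerivAt (K j) ((γ j / (γ j + ε j * p j z)) ^ 2 * φ (γ j * z + ε j * q j z)) z)
    (hA : ∀ᶠ j in (𝒰 : Filter ℕ), A j 0 = 0 ∧ ∀ z, HasDerivAt (A j) (φ (γ j * z)) z)
    (hk : ∀ z, HasDerivAt k
      (-2 * (lam * z) / γ₀ * φ (γ₀ * z) + deriv φ (γ₀ * z) * (lam * z ^ 2 / 2)) z)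
    (hk0 : k 0 = 0) : CC 𝒰 (fun j z => (K j z - A j z) / ε j) k univ := by
  have c1 := hφ.continuous
  have c2 := (hφ.deriv).continuous
  refine cc_int 𝒰 (G' := fun j z => ((γ j / (γ j + ε j * p j z)) ^ 2 *
    φ (γ j * z + ε j * q j z) - φ (γ j * z)) / ε j) (fun R => ?_) hk hk0 (by fun_prop) (fun z _ u hu =>
    lim_int 𝒰 hφ h0 hγ e0 el (hp z (mem_univ _) u hu) (hq z (mem_univ _) u hu) (hγ.mul hu))
  filter_upwards [hK R, hA] with j a b
  exact ⟨by simp [a.1, b.1], fun z hz => ((a.2 z hz).fun_sub (b.2 z)).div_const _⟩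

theorem pt (ker : S_KER) : S_PT := by
  intro 𝒰 ε θ h Q c U g L W Y Y₀ P s f x hx hg
  have e0 := s.e0
  have el := s.el
  have hy₀ : Y₀ x ∈ L := f.mem hx
  have hb : Tendsto (fun j => Y j x) 𝒰 (𝓝 (Y₀ x)) := f.cc x hx (fun _ => x) tendsto_const_nhds
  have eΘ : EH 𝒰 (fun j y => ε j * θ j y) L := fun y hy => by
    obtain ⟨ρ, hρ, a⟩ := s.ex y hy
    exact ⟨ρ, hρ, a.mono fun j b => ((s.cv j).dθ.mono b).const_mul _⟩
  have dΘ : (fun j => deriv (fun y => ε j * θ j y)) = fun j y => ε j * deriv (θ j) y := by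
    funext j y
    exact deriv_const_mul_field _
  have eG : EH 𝒰 (fun j y => ε j * deriv (θ j) y) L := dΘ ▸ eΘ.deriv
  have hγ := s.cc _ hy₀ _ hb
  have hp := dq 𝒰 s.op eG s.dg s.cc hy₀ hb e0 el
  have hq := dq2 𝒰 s.op eΘ s.dg (dΘ ▸ s.cc) hy₀ hb e0 el
  simp only [deriv_const_mul_field] at hq
  obtain ⟨ρ, hρ, hU⟩ := s.ex _ hy₀
  have hne : ∀ R : ℝ, ∀ᶠ j in (𝒰 : Filter ℕ), deriv (θ j) (Y j x) ≠ 0 ∧ ∀ z ∈ ball (0 : ℂ) R,
      Y j x + ε j * z ∈ U j ∧ deriv (θ j) (Y j x + ε j * z) ≠ 0 := by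
    intro R
    have a : CC 𝒰 (fun j z => ε j * deriv (θ j) (Y j x + ε j * z)) (fun _ => g (Y₀ x)) univ :=
      fun z _ u hu => s.cc _ hy₀ _ (tend_pt hb el hu)
    filter_upwards [hU, ev_ball hb el hρ R, hγ.eventually_ne hg, cc_unif 𝒰 a
      (isCompact_closedBall 0 R) (subset_univ _) continuousOn_const
      (half_pos (norm_pos_iff.2 hg))] with j b1 b2 b3 b4
    refine ⟨right_ne_zero_of_mul b3, fun z hz => ⟨b1 (b2 z hz), fun h0 => ?_⟩⟩
    have := b4 z (ball_subset_closedBall hz)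
    rw [h0, mul_zero, zero_sub, norm_neg] at this
    linarith [norm_pos_iff.2 hg]
  have hN := rem_cc 𝒰 differentiable_sin hg hγ e0 el hp hq
    (K := fun j z => kk (θ j) (h j) (Y j x) (Y j x + ε j * z) / deriv (θ j) (Y j x + ε j * z) *
      (deriv (θ j) (Y j x) ^ 2 / (c j * ε j)))
    (A := fun j z => (1 - cos (ε j * deriv (θ j) (Y j x) * z)) / (ε j * deriv (θ j) (Y j x)))
    (fun R => ?_) ?_ (n1_der hg _) (by simp [n1, Sf])
  have hT := rem_cc 𝒰 differentiable_cos hg hγ e0 el hp hq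
    (K := fun j z => k1 (θ j) (h j) (Y j x) (Y j x + ε j * z) /
      (deriv (θ j) (Y j x + ε j * z) * deriv (θ j) (Y j x)) *
      (-(deriv (θ j) (Y j x) ^ 2 / (c j * ε j))))
    (A := fun j z => sin (ε j * deriv (θ j) (Y j x) * z) / (ε j * deriv (θ j) (Y j x)))
    (fun R => ?_) ?_ (t1_der hg _) (by simp [t1])
  · have cx : Tendsto (fun _ : ℕ => x) 𝒰 (𝓝 x) := tendsto_const_nhds
    have cW : ∀ w : ℂ, Tendsto (fun _ : ℕ => w) 𝒰 (𝓝 w) := fun _ => tendsto_const_nhds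
    have z1 := dq 𝒰 f.op f.eh f.dY f.cc hx cx e0 el W (mem_univ _) _ (cW W)
    have z2 := dq 𝒰 f.op f.eh f.dY f.cc hx cx e0 el (-W) (mem_univ _) _ (cW (-W))
    have cd := cc_deriv 𝒰 f.op f.eh f.dY f.cc
    have dd := f.dY.deriv f.op
    have hσ := (dq2 𝒰 f.op f.eh dd cd hx cx e0 el W (mem_univ _) _ (cW W)).add
      (dq2 𝒰 f.op f.eh dd cd hx cx e0 el (-W) (mem_univ _) _ (cW (-W)))
    simp only [mul_neg] at z2 hσ
    set zp : ℕ → ℂ := fun j => (Y j (x + ε j * W) - Y j x) / ε j with hzp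
    set zm : ℕ → ℂ := fun j => (Y j (x + -(ε j * W)) - Y j x) / ε j with hzm
    set γ : ℕ → ℂ := fun j => ε j * deriv (θ j) (Y j x) with hγd
    set α := deriv Y₀ x * W with hα
    replace hσ : Tendsto (fun j => (zp j + zm j) / ε j) 𝒰
        (𝓝 (deriv (deriv Y₀) x * W ^ 2)) := by
      convert hσ using 2
      · have := e0 ‹ℕ›
        simp only [hzp, hzm]
        field_simp
        ring
      · ring
    have n1p := hN _ (mem_univ _) _ z1
    have n1m := hN _ (mem_univ _) _ z2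
    have t1p := hT _ (mem_univ _) _ z1
    have t1m := hT _ (mem_univ _) _ z2
    have s1 := dq_ent 𝒰 differentiable_sin (hγ.mul z1).neg e0 el (hγ.mul hσ)
    have s2 := dq_ent 𝒰 differentiable_sin (cW 0) e0 el (hγ.mul hσ)
    have cs : ∀ {a : ℕ → ℂ} {a₀ : ℂ}, Tendsto a 𝒰 (𝓝 a₀) →
        Tendsto (fun j => sin (γ j * a j) / γ j) 𝒰 (𝓝 (sin (g (Y₀ x) * a₀) / g (Y₀ x))) :=
      fun ha => ((continuous_sin.tendsto _).comp (hγ.mul ha)).div hγ hg
    have cc : ∀ {a : ℕ → ℂ} {a₀ : ℂ}, Tendsto a 𝒰 (𝓝 a₀) →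
        Tendsto (fun j => (1 - cos (γ j * a j)) / γ j) 𝒰
          (𝓝 ((1 - cos (g (Y₀ x) * a₀)) / g (Y₀ x))) :=
      fun ha => (((continuous_cos.tendsto _).comp (hγ.mul ha)).const_sub 1).div hγ hg
    have tot := ((s1.sub s2).div (hγ.pow 2) (pow_ne_zero 2 hg)).add
      (((n1p.mul ((cs z2).add (el.mul t1m))).add ((cc z1).mul t1m)).add
        ((n1m.mul ((cs z1).add (el.mul t1p))).add ((cc z2).mul t1p)))
    have z0 := tendsto_nhds_unique tot (tendsto_const_nhds (x := (0 : ℂ)).congr' ?_)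
    · simp only [zero_mul, add_zero, Complex.deriv_sin] at z0
      have a := alg_pt hg z0
      have dY := (f.dY.differentiableAt (f.op.mem_nhds hx)).hasDerivAt
      have d2 := (dd.differentiableAt (f.op.mem_nhds hx)).hasDerivAt
      have dg := (s.dg.differentiableAt (s.op.mem_nhds hy₀)).hasDerivAt
      have d3 : HasDerivAt (dl g Y₀ W) _ x :=
        ((((dg.comp x dY).const_mul W).fun_mul d2).div_const 2)
      have e1 : dl g Y₀ W x = g (Y₀ x) * α / 2 := by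
        simp only [dl, hα]
        ring
      rw [Ode, d3.deriv, e1]
      simp only [Function.comp, hα] at a ⊢
      linear_combination a
    · filter_upwards [f.law x hx, hne (‖α‖ + 1), z1 (ball_mem_nhds _ one_pos),
        z2 (ball_mem_nhds _ one_pos)] with j b1 b2 b3 b4
      have m : ∀ a b : ℂ, ‖b‖ = ‖α‖ → a ∈ ball b 1 → a ∈ ball (0 : ℂ) (‖α‖ + 1) := by
        intro a b hb ha
        rw [mem_ball_zero_iff]
        rw [mem_ball, dist_eq_norm] at ha
        linarith [norm_sub_norm_le a b]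
      have g1 := (b2.2 _ (m _ _ rfl b3)).2
      have g2 := (b2.2 _ (m _ _ (norm_neg _) b4)).2
      have g0 := b2.1
      have ε0 := e0 j
      have c0 := (s.cv j).c0
      have r1 : Y j (x + ε j * W) = Y j x + ε j * zp j := by
        simp only [hzp]
        field_simp
        ring
      have r2 : Y j (x - ε j * W) = Y j x + ε j * zm j := by
        simp only [hzm, sub_eq_add_neg x]
        field_simp
        ring
      rw [r1, r2, EE] at b1
      have w1 : -(γ j * zp j) + ε j * (γ j * ((zp j + zm j) / ε j)) = γ j * zm j := by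
        field_simp
        ring
      have w2 : 0 + ε j * (γ j * ((zp j + zm j) / ε j)) = γ j * zp j + γ j * zm j := by
        field_simp
        ring
      simp only [Pi.div_apply, Function.comp]
      rw [w1, w2, sin_add, sin_neg, sin_zero]
      simp only [hγd]
      generalize kk (θ j) (h j) (Y j x) (Y j x + ε j * zp j) = a1 at b1 ⊢
      generalize kk (θ j) (h j) (Y j x) (Y j x + ε j * zm j) = a2 at b1 ⊢
      generalize k1 (θ j) (h j) (Y j x) (Y j x + ε j * zp j) = a3 at b1 ⊢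
      generalize k1 (θ j) (h j) (Y j x) (Y j x + ε j * zm j) = a4 at b1 ⊢
      generalize deriv (θ j) (Y j x + ε j * zp j) = a5 at g1 ⊢
      generalize deriv (θ j) (Y j x + ε j * zm j) = a6 at g2 ⊢
      generalize sin (ε j * deriv (θ j) (Y j x) * zp j) = a7
      generalize sin (ε j * deriv (θ j) (Y j x) * zm j) = a8
      generalize cos (ε j * deriv (θ j) (Y j x) * zp j) = a9
      generalize cos (ε j * deriv (θ j) (Y j x) * zm j) = a10
      generalize deriv (θ j) (Y j x) = a0 at g0 ⊢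
      field_simp
      linear_combination (exp := 1) (a0 ^ 5) * b1
  · filter_upwards [hne R] with j b
    refine ⟨by simp [k1]; left; left; ring, fun z hz => ?_⟩
    obtain ⟨m1, m2⟩ := b.2 z hz
    have a := (((ker _ _ _ _ _ (s.cv j) (Y j x) _ m1 m2 b.1).2.comp z
      (hd_aff' (Y j x) (ε j) z)).mul_const (-(deriv (θ j) (Y j x) ^ 2 / (c j * ε j))))
    refine a.congr_deriv ?_
    have ε0 := e0 j
    have c0 := (s.cv j).c0
    have g0 := b.1
    have w : ε j * deriv (θ j) (Y j x) * z + ε j * ((ε j * θ j (Y j x + ε j * z) -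
        ε j * θ j (Y j x) - ε j * z * (ε j * deriv (θ j) (Y j x))) / ε j ^ 2) =
        θ j (Y j x + ε j * z) - θ j (Y j x) := by
      field_simp
      ring
    rw [w, mul_div_cancel₀ _ ε0, add_sub_cancel]
    field_simp
  · filter_upwards [hγ.eventually_ne hg] with j b
    refine ⟨by simp, fun z => ((hd_lin _ z).csin.div_const _).congr_deriv ?_⟩
    rw [mul_div_cancel_right₀ _ b]
  · filter_upwards [hne R] with j b
    refine ⟨by simp [kk], fun z hz => ?_⟩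
    obtain ⟨m1, m2⟩ := b.2 z hz
    have a := (((ker _ _ _ _ _ (s.cv j) (Y j x) _ m1 m2 b.1).1.comp z
      (hd_aff' (Y j x) (ε j) z)).mul_const (deriv (θ j) (Y j x) ^ 2 / (c j * ε j)))
    refine a.congr_deriv ?_
    have ε0 := e0 j
    have c0 := (s.cv j).c0
    have g0 := b.1
    have w : ε j * deriv (θ j) (Y j x) * z + ε j * ((ε j * θ j (Y j x + ε j * z) -
        ε j * θ j (Y j x) - ε j * z * (ε j * deriv (θ j) (Y j x))) / ε j ^ 2) =
        θ j (Y j x + ε j * z) - θ j (Y j x) := by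
      field_simp
      ring
    rw [w, mul_div_cancel₀ _ ε0, add_sub_cancel]
    field_simp
  · filter_upwards [hγ.eventually_ne hg] with j b
    refine ⟨by simp, fun z => (((hd_lin _ z).ccos.const_sub 1).div_const _).congr_deriv ?_⟩
    rw [neg_mul, neg_neg, mul_div_cancel_right₀ _ b]

end Vale.Agent.P097Mo
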