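import Vale.Agent.P097Mo.Ker
import Vale.Agent.P097Mo.Pt
import Vale.Agent.P097Mo.Fin

/-!
# P097Mo: the model law
-/

namespace Vale.Agent.P097Mo

theorem model : Spec_MODEL := model_of (pt ker) fin

end Vale.Agent.P097Mo
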