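import Vale.Agent.P097Mo.Defs

/-!
# P097Mo: the two kernels as primitives
-/

set_option linter.all false

noncomputable section

namespace Vale.Agent.P097Mo

open Filter Topology Set Metric Complex Vale.Agent.P097N

theorem ker : S_KER := by
  intro θ h Q c U H b ζ hζ hg hb
  have hn := H.op.mem_nhds hζ
  have aθ : AnalyticAt ℂ θ ζ := H.dθ.analyticAt hn
  have ah : AnalyticAt ℂ h ζ := H.dh.analyticAt hn
  have d0 := aθ.differentiableAt.hasDerivAt
  have d1 := aθ.deriv.differentiableAt.hasDerivAt
  have e0 := ah.differentiableAt.hasDerivAt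
  have e1 := ah.deriv.differentiableAt.hasDerivAt
  have hs := (d0.const_sub (θ b)).csin
  have hc := (d0.const_sub (θ b)).ccos
  have ode := H.ode ζ hζ
  have s1 : sin (θ ζ - θ b) = -sin (θ b - θ ζ) := by rw [← Complex.sin_neg, neg_sub]
  have c1 : cos (θ ζ - θ b) = cos (θ b - θ ζ) := by rw [← Complex.cos_neg, neg_sub]
  constructor
  · have k := (((d1.mul_const (h b)).sub ((d1.mul e0).mul hc)).sub (e1.mul hs)).div d1 hg
    refine k.congr_deriv ?_
    simp only [Pi.mul_apply, Pi.sub_apply]
    rw [s1, ← ode]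
    field_simp
    ring
  · have k := ((((d1.mul_const (deriv h b)).add (((d1.mul e0).mul_const (deriv θ b)).mul hs)).sub
      ((e1.mul_const (deriv θ b)).mul hc)).div (d1.mul_const (deriv θ b)) (mul_ne_zero hg hb))
    refine k.congr_deriv ?_
    simp only [Pi.mul_apply, Pi.sub_apply, Pi.add_apply]
    rw [c1, ← ode]
    field_simp
    ring

end Vale.Agent.P097Mo
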