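import Vale.Agent.P097Mo.All

/-!
# P097Mo: the model law for a converging sequence of step ratios
-/

set_option linter.all false

noncomputable section

namespace Vale.Agent.P097Mo

open Filter Topology Set Metric Complex Vale.Agent.P097N

/-- a sequence of leaves of steps `ε j * w j` with the limit `Y₀` on `P` -/
structure Lfv (l : Filter ℕ) (ε : ℕ → ℂ) (θ h : ℕ → ℂ → ℂ) (w : ℕ → ℂ) (W : ℂ) (Y : ℕ → ℂ → ℂ)
    (Y₀ : ℂ → ℂ) (L P : Set ℂ) : Prop where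
  op : IsOpen P
  wl : Tendsto w l (𝓝 W)
  eh : EH l Y P
  dY : DifferentiableOn ℂ Y₀ P
  cc : CC l Y Y₀ P
  mem : MapsTo Y₀ P L
  law : ∀ x ∈ P, ∀ᶠ j in l,
    EE (θ j) (h j) (Y j (x - ε j * w j)) (Y j x) (Y j (x + ε j * w j)) = 0

theorem modelv (𝒰 : Ultrafilter ℕ) {ε : ℕ → ℂ} {θ h Q : ℕ → ℂ → ℂ} {c : ℕ → ℂ} {U : ℕ → Set ℂ}
    {g : ℂ → ℂ} {L : Set ℂ} {w : ℕ → ℂ} {W : ℂ} {Y : ℕ → ℂ → ℂ} {Y₀ : ℂ → ℂ} {P : Set ℂ}
    (s : Seq 𝒰 ε θ h Q c U g L) (f : Lfv 𝒰 ε θ h w W Y Y₀ L P) (hP : IsPreconnected P)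
    (hW : W ≠ 0) (hN : Nrm g Y₀ P) : Mod g Y₀ W P := by
  classical
  let k : ℕ → ℂ := fun j => if w j = 0 then 1 else w j / W
  have ev : ∀ᶠ j in (𝒰 : Filter ℕ), k j = w j / W :=
    (f.wl.eventually_ne hW).mono fun j hj => if_neg hj
  have k1 : Tendsto k 𝒰 (𝓝 1) := by
    have a := f.wl.div_const W
    rw [div_self hW] at a
    exact a.congr' (ev.mono fun j hj => hj.symm)
  have k0 : ∀ j, k j ≠ 0 := fun j => by
    by_cases hj : w j = 0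
    · simp [k, hj]
    · simp [k, hj, hW]
  refine model 𝒰 (fun j => k j * ε j) θ h Q c U g L W Y Y₀ P
    ⟨fun j => mul_ne_zero (k0 j) (s.e0 j), by simpa using k1.mul s.el, s.cv, s.op, s.ex, s.dg,
      fun y hy u hu => ?_⟩ ⟨f.op, f.eh, f.dY, f.cc, f.mem, fun x hx => ?_⟩ hP hW hN
  · simpa [mul_assoc] using k1.mul (s.cc y hy u hu)
  · filter_upwards [f.law x hx, ev] with j a b
    have e : k j * ε j * W = ε j * w j := by
      rw [b]
      field_simp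
    rwa [e]

end Vale.Agent.P097Mo
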